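import Vale.Agent.P215Z.Reg.Closed
import Vale.Agent.P215Z.Frm.CS

/-!
# P215: Stokes on the region (R5a)
-/

set_option linter.unusedSectionVars false
set_option linter.unusedSimpArgs false

noncomputable section
namespace Vale.Agent.P215Z
open MvPolynomial Classical

namespace R5a

section forms
variable {O : Type} [CommRing O] [Algebra ℚ O]

theorem pairD_sum {ι : Type} (t : Finset ι) (e : ι → F2 O) (e' : F2 O) (p : Pt) :
    pairD (∑ y ∈ t, e y) e' p = ∑ y ∈ t, pairD (e y) e' p := by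
  induction t using Finset.induction_on with
  | empty => simp [pairD]
  | insert a t ha ih =>
    rw [Finset.sum_insert ha, Finset.sum_insert ha, ← ih]
    simp only [pairD, Pi.add_apply, add_mul, Matrix.trace_add, smul_add, Finset.sum_add_distrib]

theorem pairD_sub (e e' e'' : F2 O) (p : Pt) :
    pairD (e - e') e'' p = pairD e e'' p - pairD e' e'' p := by
  simp only [pairD, Pi.sub_apply, sub_mul, Matrix.trace_sub, smul_sub, Finset.sum_sub_distrib]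

theorem pairD_mem {b : Ideal O} {e e' : F2 O} {p : Pt}
    (h : ∀ i j k l, InI b (e p i j * e' p k l)) : itg (pairD e e' p) ∈ b := by
  refine itg_mem ?_
  rw [pairD, ← algebraMap_smul (RR O)]
  refine Ideal.mul_mem_left _ _ ?_
  refine Ideal.sum_mem _ fun i _ => Ideal.sum_mem _ fun j _ => Ideal.sum_mem _ fun k _ =>
    Ideal.sum_mem _ fun l _ => zsmul_mem (InC.trace (h i j k l)) _

theorem pairD_zero {e : F2 O} (e' : F2 O) {p : Pt} (h : ∀ i j, e p i j = 0) :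
    pairD e e' p = 0 := by
  simp [pairD, h]

theorem pair_expand (F J : F2 O) (p : Pt) :
    pairD F F p - 2 * pairD J F p = pairD (F - J) (F - J) p - pairD J J p := by
  rw [pairD_sub, pairD_symm F (F - J), pairD_symm J (F - J), pairD_sub, pairD_sub,
    pairD_symm F J]
  ring

theorem curv_anti (A : F1 O) (p : Pt) (i j : Fin 4) : curv A p i j = -curv A p j i := by
  simp only [curv, dd1, Ring.lie_def]
  abel

theorem nil_map {a : Ideal O} (ha : IsNilpotent a) : IsNilpotent (a.map (C : O →+* RR O)) := by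
  obtain ⟨n, hn⟩ := ha
  exact ⟨n, by rw [← Ideal.map_pow, hn, Ideal.zero_eq_bot, Ideal.map_bot, Ideal.zero_eq_bot]⟩

theorem lie_mul {b : Ideal O} {y : MM O} {g g' : (MM O)ˣ} (h : InI b ⁅y, (g : MM O)⁆)
    (h' : InI b ⁅y, (g' : MM O)⁆) : InI b ⁅y, ((g * g' : (MM O)ˣ) : MM O)⁆ := by
  have e : ⁅y, ((g * g' : (MM O)ˣ) : MM O)⁆ = ⁅y, (g : MM O)⁆ * g' + g * ⁅y, (g' : MM O)⁆ := by
    simp only [Ring.lie_def, Units.val_mul]
    noncomm_ring
  rw [e]
  exact InC.add (InC.mul_right h _) (InC.mul_left h' _)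

/-- the first order term, with the change of the base point -/
theorem first_ord {a M ii : Ideal O} (ha : IsNilpotent a) (hii : ii * ii = ⊥) (hle : M ⊔ ii ≤ a)
    {y ξ : MM O} (hy : InI ii y) (hξ : InI ii ξ) {T lam Λ : (MM O)ˣ} (hT : InI M ⁅y, (T : MM O)⁆)
    (hΛ : Λ ∈ UG (M ⊔ ii)) (h : InI M (ξ - Ad lam y)) :
    itg (Matrix.trace (y * lg ((T * (lam * Λ * lam⁻¹) * T⁻¹ : (MM O)ˣ) : MM O))) -
      itg (Matrix.trace (ξ * ((Λ : MM O) - 1))) ∈ M ^ 2 := by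
  have h1 : lam * Λ * lam⁻¹ ∈ UG (M ⊔ ii) := (UG_normal _).conj_mem _ hΛ _
  have h2 : T * (lam * Λ * lam⁻¹) * T⁻¹ ∈ UG (M ⊔ ii) := (UG_normal _).conj_mem _ h1 _
  have h3 := lg_first' (nil_map ha) (InI.mono hle h2) h2
  rw [← Ideal.map_pow] at h3
  have hle2 : ii * (M ⊔ ii) ^ 2 ≤ M ^ 2 := by
    rw [sq, sq, ← mul_assoc, Ideal.mul_sup ii, hii, sup_bot_eq, mul_comm ii M, mul_assoc,
      Ideal.mul_sup ii, hii, sup_bot_eq]
    exact Ideal.mul_mono_right Ideal.mul_le_right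
  have h4 := InI.mono hle2 (InI.mul hy h3)
  have h5 : InI M (Ad T y - y) := by
    have e : Ad T y - y = (↑T⁻¹ : MM O) * ⁅y, (T : MM O)⁆ := by
      rw [Ring.lie_def, mul_sub, Units.inv_mul_cancel_left, Ad, mul_assoc]
    rw [e]
    exact InC.mul_left hT _
  have h6 := F3.mul_sq hii h5 (InC.sub (InC.Ad hy T) hy) h1
  have h7 := F3.mul_sq hii h (InC.sub hξ (InC.Ad hy lam)) hΛ
  have e1 : Matrix.trace (y * (((T * (lam * Λ * lam⁻¹) * T⁻¹ : (MM O)ˣ) : MM O) - 1)) =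
      Matrix.trace (Ad T y * (((lam * Λ * lam⁻¹ : (MM O)ˣ) : MM O) - 1)) := by
    rw [← trace_Ad T]
    refine congrArg Matrix.trace ?_
    simp only [Ad, Units.val_mul, mul_sub, sub_mul, mul_assoc, Units.inv_mul, mul_one]
  have e2 : Matrix.trace (y * (((lam * Λ * lam⁻¹ : (MM O)ˣ) : MM O) - 1)) =
      Matrix.trace (Ad lam y * ((Λ : MM O) - 1)) := by
    rw [← trace_Ad lam]
    refine congrArg Matrix.trace ?_
    simp only [Ad, Units.val_mul, mul_sub, sub_mul, mul_assoc, Units.inv_mul, mul_one]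
  have k4 := itg_mem (InC.trace h4)
  have k6 := itg_mem (InC.trace h6)
  have k7 := itg_mem (InC.trace h7)
  rw [mul_sub, Matrix.trace_sub, map_sub, e1] at k4
  rw [sub_mul, Matrix.trace_sub, map_sub, e2] at k6
  rw [sub_mul, Matrix.trace_sub, map_sub] at k7
  have k8 := sub_mem (add_mem k4 k6) k7
  refine (congrArg (· ∈ M ^ 2) ?_).mp k8
  ring

end forms

/-! ### the corners of a face -/

theorem nxt0 (f : Gp) : nxt f f = f + (1, 0) := if_pos rfl

theorem nxt1 (f : Gp) : nxt f (f + (1, 0)) = f + (1, 1) := by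
  rw [nxt, if_neg (by simp [Prod.ext_iff]), if_pos rfl]

theorem nxt2 (f : Gp) : nxt f (f + (1, 1)) = f + (0, 1) := by
  rw [nxt, if_neg (by simp [Prod.ext_iff]), if_neg (by simp [Prod.ext_iff]), if_pos rfl]

theorem nxt3 (f : Gp) : nxt f (f + (0, 1)) = f := by
  rw [nxt, if_neg (by simp [Prod.ext_iff]), if_neg (by simp [Prod.ext_iff]),
    if_neg (by simp [Prod.ext_iff])]

theorem corner_cases {f r : Gp} (h : Corner f r) :
    r = f ∨ r = f + (1, 0) ∨ r = f + (1, 1) ∨ r = f + (0, 1) := by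
  obtain ⟨h1 | h1, h2 | h2⟩ := h
  · exact Or.inl (Prod.ext h1 h2)
  · exact Or.inr (Or.inr (Or.inr (Prod.ext (by simpa using h1) (by simpa using h2))))
  · exact Or.inr (Or.inl (Prod.ext (by simpa using h1) (by simpa using h2)))
  · exact Or.inr (Or.inr (Or.inl (Prod.ext (by simpa using h1) (by simpa using h2))))

theorem lf0 (f : Gp) : lf f (f + (1, 0)) = f := if_pos rfl

theorem lf1 (f : Gp) : lf (f + (1, 0)) (f + (1, 1)) = f := by
  rw [lf, if_neg (by simp [Prod.ext_iff]), if_pos (by simp [Prod.ext_iff]), add_sub_cancel_right]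

theorem lf2 (f : Gp) : lf (f + (1, 1)) (f + (0, 1)) = f := by
  rw [lf, if_neg (by simp [Prod.ext_iff]; omega), if_neg (by simp [Prod.ext_iff]),
    if_pos (by simp [Prod.ext_iff]), add_sub_cancel_right]

/-- the loop around the face `f`, from the corner `r` -/
def loop {G : Type} [Group G] (U : Gp → Gp → G) (f r : Gp) : G :=
  U r (nxt f r) * U (nxt f r) (nxt f (nxt f r)) * U (nxt f (nxt f r)) (nxt f (nxt f (nxt f r))) *
    U (nxt f (nxt f (nxt f r))) r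

theorem rebase {G : Type} [Group G] (U : Gp → Gp → G) (lam : Gp → G) (Q : G → Prop) (h1 : Q 1)
    (hm : ∀ g g', Q g → Q g' → Q (g * g')) {f r : Gp} (hr : Corner f r)
    (e0 : Q (lam f * U f (f + (1, 0)) * (lam (f + (1, 0)))⁻¹))
    (e1 : Q (lam (f + (1, 0)) * U (f + (1, 0)) (f + (1, 1)) * (lam (f + (1, 1)))⁻¹))
    (e2 : Q (lam (f + (1, 1)) * U (f + (1, 1)) (f + (0, 1)) * (lam (f + (0, 1)))⁻¹)) :
    ∃ T, Q T ∧ lam f * holL U (bdF f) * (lam f)⁻¹ =
      T * (lam r * loop U f r * (lam r)⁻¹) * T⁻¹ := by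
  rcases corner_cases hr with rfl | rfl | rfl | rfl
  · refine ⟨1, h1, ?_⟩
    simp only [loop, nxt0, nxt1, nxt2, nxt3, holL, bdF]
    group
  · refine ⟨_, e0, ?_⟩
    simp only [loop, nxt0, nxt1, nxt2, nxt3, holL, bdF]
    group
  · refine ⟨_, hm _ _ e0 e1, ?_⟩
    simp only [loop, nxt0, nxt1, nxt2, nxt3, holL, bdF]
    group
  · refine ⟨_, hm _ _ (hm _ _ e0 e1) e2, ?_⟩
    simp only [loop, nxt0, nxt1, nxt2, nxt3, holL, bdF]
    group

theorem eq_of_isFace {τ p : Pt} (h : IsFace τ p) (hτ : ∀ j, Odd (τ j)) : τ = p := by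
  funext j
  rcases h j with e | ⟨⟨a, ha⟩, e⟩
  · exact e
  · obtain ⟨b, hb⟩ := hτ j
    rw [abs_eq (by norm_num)] at e
    omega

theorem odd_cell (q : Pt) (j : Fin 4) : Odd (cell q j) := ⟨q j, rfl⟩

theorem cell_mem {N : ℕ} {q : Pt} (hq : q ∈ Rf N) : cell q ∈ KR N := by
  rw [← Kof_Rf]
  exact ⟨q, hq, fun j => by simp⟩

theorem abs_face (p : Pt) (k : Fin 4) (c : Bool) : |p k - face p k c k| ≤ 1 := by
  rw [face_self]
  cases c <;> simp

variable (s : Setup) {O : Type} [CommRing O] [Algebra ℚ O] (m : Marked O Mk)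
  {x : ∀ l : Lg, Option (s.L.C l.1) → M2 O}
  (hx : ∀ l c, s.L.cown l c = true → InC (m.ii (s.L.cmark l c)) (x l c))
  {A B : F1 O} (hp : s.Pair m.a A B)

theorem pe_of_lf {f r r' : Gp} (hf : InSq s.g.m f) (h : GAdj r r') (e : lf r r' = f) :
    s.cv.PE (s.cv.sh f) r r' := ⟨h, Or.inl (by rw [e]; exact ⟨hf, rfl⟩)⟩

include hx in
theorem MR_le (A : F1 O) : s.MR x A ≤ m.a := by
  refine Ideal.span_le.2 ?_
  rintro _ ⟨c, a, a', rfl⟩
  have h := (s.nv_mem m hx A c).mono (m.le _)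
  have h2 : InC m.a (s.nu x A c) := by
    rw [Setup.nu, Ring.lie_def]
    exact (h.mul_right _).sub (h.mul_left _)
  exact h2 a a'

/-- the contribution of an item to a cube -/
def GG (x : ∀ l : Lg, Option (s.L.C l.1) → M2 O) (A : F1 O) (P : s.cv.S) (Q : Gp) (τ : Pt) : O :=
  if h : Q ∈ sqs s.D.M then
    itg ((s.itR x A (P, ⟨Q, h⟩)).o • (hat τ (s.itR x A (P, ⟨Q, h⟩)).σ (s.itR x A (P, ⟨Q, h⟩)).k *
      hat τ (s.itR x A (P, ⟨Q, h⟩)).σ (s.itR x A (P, ⟨Q, h⟩)).l *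
      Matrix.trace ((s.itR x A (P, ⟨Q, h⟩)).xi A τ *
        curv A τ (s.itR x A (P, ⟨Q, h⟩)).k (s.itR x A (P, ⟨Q, h⟩)).l)))
  else 0

theorem pair_JF (A : F1 O) (p : Pt) : itg (pairD (s.JR x A) (curv A) p) =
    ∑ y : s.cv.S × (sqs s.D.M),
      if (s.itR x A y).o ≠ 0 ∧ (s.itR x A y).Star p then GG s x A y.1 y.2.1 p else 0 := by
  rw [Setup.JR, JJ, pairD_sum, map_sum]
  refine Finset.sum_congr rfl fun y _ => ?_
  split_ifs with h
  · rw [Item.pair_J A _ (s.itR_valid x A y h.1) h.2 _ (curv_anti A p), GG, dif_pos y.2.2]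
  · rw [pairD_zero, map_zero]
    intro i j
    by_cases h0 : (s.itR x A y).o = 0
    · rw [Item.J_of_o A _ h0]
      rfl
    · exact if_neg fun h1 => h ⟨h0, h1⟩

include hx in
theorem pair_JJ (A : F1 O) {q : Pt} (hq : q ∈ Rf s.D.N) :
    itg (pairD (s.JR x A) (s.JR x A) (cell q)) = 0 := by
  by_cases h : ∃ y, (s.itR x A y).o ≠ 0 ∧ (s.itR x A y).Star (cell q)
  · obtain ⟨y, h1, h2⟩ := h
    obtain ⟨f, r, hf, e1, -, hr, e2⟩ := s.star_face x A y h1 h2 (cell_mem hq)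
    have h3 := s.isFace_cube hf hr
    rw [e1, e2] at h3
    rw [eq_of_isFace h3 (odd_cell q), ← Ideal.mem_bot, ← m.sq (s.mkS (s.cv.sh f))]
    exact pairD_mem fun i j k l => InI.mul (s.JR_cube m hx A hf i j) (s.JR_cube m hx A hf k l)
  · rw [pairD_zero, map_zero]
    intro i j
    rw [Setup.JR, JJ, Finset.sum_apply, Finset.sum_apply, Finset.sum_apply]
    refine Finset.sum_eq_zero fun y _ => ?_
    by_cases h0 : (s.itR x A y).o = 0
    · rw [Item.J_of_o A _ h0]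
      rfl
    · exact if_neg fun h1 => h ⟨y, h0, h1⟩

theorem loop_v0 (A : F1 O) (f : Gp) : loop (s.UU A (s.cv.sh f)) f (v0 f) =
    step A (s.FF (s.cv.sh f) (v0 f)) (s.FF (s.cv.sh f) (nxt f (v0 f))) *
      step A (s.FF (s.cv.sh f) (nxt f (v0 f))) (s.FF (s.cv.sh f) (ctr (sqOf f))) *
      step A (s.FF (s.cv.sh f) (ctr (sqOf f))) (s.FF (s.cv.sh f) (nxt f (ctr (sqOf f)))) *
      step A (s.FF (s.cv.sh f) (nxt f (ctr (sqOf f)))) (s.FF (s.cv.sh f) (v0 f)) := by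
  rw [loop, nxt_nxt_v0]
  rfl

theorem loop_deg (A : F1 O) {f : Gp} (hf : InSq s.g.m f) (h : ¬ s.Nondeg (s.cv.sh f) (sqOf f)) :
    loop (s.UU A (s.cv.sh f)) f (v0 f) = 1 := by
  rw [loop_v0]
  rcases s.face_deg hf h with e | ⟨e, e'⟩ | ⟨e, e'⟩
  · rw [← e, step_symm A (s.FF (s.cv.sh f) (nxt f (v0 f))) (s.FF (s.cv.sh f) (ctr (sqOf f))),
      step_symm A (s.FF (s.cv.sh f) (v0 f)) (s.FF (s.cv.sh f) (nxt f (v0 f)))]
    group
  · rw [e, e', step_self, step_self,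
      step_symm A (s.FF (s.cv.sh f) (v0 f)) (s.FF (s.cv.sh f) (ctr (sqOf f)))]
    group
  · rw [e, e', step_self, step_self,
      step_symm A (s.FF (s.cv.sh f) (v0 f)) (s.FF (s.cv.sh f) (ctr (sqOf f)))]
    group

include hx hp in
/-- one face -/
theorem face_one (hs : In2 (KR s.D.N) (s.MR x A) (curv A - s.JR x A)) {f : Gp}
    (hf : InSq s.g.m f) :
    itg (Matrix.trace (cst (s.src x (s.cv.sh f)) *
      lg ((s.lam A (s.cv.sh f) f * holL (s.UU A (s.cv.sh f)) (bdF f) *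
        (s.lam A (s.cv.sh f) f)⁻¹ : (MM O)ˣ) : MM O))) -
      (if s.Nondeg (s.cv.sh f) (sqOf f) then GG s x A (s.cv.sh f) (sqOf f) (s.cube f) else 0) ∈
      s.MR x A ^ 2 := by
  have hM : s.MR x A ⊔ m.a * s.MR x A ≤ s.MR x A := sup_le le_rfl Ideal.mul_le_right
  have hU : ∀ r r', GAdj r r' → lf r r' = f → InI (s.MR x A) ⁅cst (s.src x (s.cv.sh f)),
      ((s.lam A (s.cv.sh f) r * s.UU A (s.cv.sh f) r r' * (s.lam A (s.cv.sh f) r')⁻¹ :
        (MM O)ˣ) : MM O)⁆ := fun r r' h e =>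
    (s.lie_UT m hx hp hs (pe_of_lf s hf h e)).mono hM
  obtain ⟨T, hT, eT⟩ := rebase (s.UU A (s.cv.sh f)) (s.lam A (s.cv.sh f))
    (fun g => InI (s.MR x A) ⁅cst (s.src x (s.cv.sh f)), (g : MM O)⁆)
    (by rw [Units.val_one, Ring.lie_def, mul_one, one_mul, sub_self]; exact InC.zero)
    (fun _ _ => lie_mul) (corner_v0 f)
    (hU _ _ (Or.inl rfl) (lf0 f))
    (hU _ _ (Or.inr (Or.inr (Or.inl (by simp [Prod.ext_iff])))) (lf1 f))
    (hU _ _ (Or.inr (Or.inl (by simp [Prod.ext_iff]))) (lf2 f))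
  rw [eT]
  split_ifs with h
  swap
  · rw [loop_deg s A hf h, mul_one, mul_inv_cancel, mul_one, mul_inv_cancel, Units.val_one, lg_one,
      mul_zero, Matrix.trace_zero, map_zero, sub_zero]
    exact zero_mem _
  obtain ⟨k, c, l, c', hkl, e1, e2, e3, ho⟩ := s.face_nondeg x A hf h
  have eL : loop (s.UU A (s.cv.sh f)) f (v0 f) = Lam4 A (s.cube f) k c l c' := by
    rw [loop_v0, e1, e2, e3, s.FF_v0 hf, Lam4]
  rw [eL, GG, dif_pos (s.sqOf_mem hf)]
  have hxe := fun h0 => s.xi_eta m hx hp hs (s.cv.sh f, ⟨sqOf f, s.sqOf_mem hf⟩) h0 hf rfl rfl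
    (corner_v0 f)
  have hv := s.itR_valid x A (s.cv.sh f, ⟨sqOf f, s.sqOf_mem hf⟩)
  have hsrc : InI (m.ii (s.mkS (s.cv.sh f))) (cst (s.src x (s.cv.sh f))) :=
    (inI_cst _ _).2 (s.src_mem m hx _)
  have hY : InC (m.ii (s.mkS (s.cv.sh f)))
      (s.itR x A (s.cv.sh f, ⟨sqOf f, s.sqOf_mem hf⟩)).Y := InI.at0 (InC.Ad hsrc _)
  have hσ : (s.itR x A (s.cv.sh f, ⟨sqOf f, s.sqOf_mem hf⟩)).σ =
      face (face (s.cube f) k c) l c' := e2
  simp only [s.FF_v0 hf] at hxe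
  generalize s.itR x A (s.cv.sh f, ⟨sqOf f, s.sqOf_mem hf⟩) = it at *
  have hs0 : sB c * sB c' ≠ 0 := by cases c <;> cases c' <;> simp [sB]
  have h0 : it.o ≠ 0 := by
    rcases ho with ⟨-, -, e⟩ | ⟨-, -, e⟩
    · rwa [e]
    · rwa [e, neg_ne_zero]
  have a1 : |s.cube f k - it.σ k| ≤ 1 := by
    rw [hσ, face_ne hkl]
    exact abs_face _ _ _
  have a2 : |s.cube f l - it.σ l| ≤ 1 := by
    rw [hσ, ← face_ne (p := s.cube f) (c := c) hkl.symm]
    exact abs_face _ _ _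
  have a3 : ∀ j, j ≠ k → j ≠ l → s.cube f j = it.σ j := fun j h1 h2 => by
    rw [hσ, face_ne h2, face_ne h1]
  have hst : it.Star (s.cube f) := by
    rcases ho with ⟨b1, b2, -⟩ | ⟨b1, b2, -⟩
    · rw [Item.Star, b1, b2]
      exact ⟨a3, a1, a2⟩
    · rw [Item.Star, b1, b2]
      exact ⟨fun j h1 h2 => a3 j h2 h1, a2, a1⟩
  have hfl := s.flat_cube m hx hp hs hf
  have hK : Cx (KR s.D.N) := cx_Kof _
  have hξ : InI (m.ii (s.mkS (s.cv.sh f))) (it.xi A (s.cube f)) :=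
    InC.Ad ((inI_cst _ _).2 hY) _
  have hcov : ∀ j, InI (s.MR x A) (cov A (s.cube f) j (it.xi A (s.cube f))) := fun j =>
    (Item.xi_cov m.nil hK hp.gA hp.iA it (hv h0) (m.sq _) hY (s.cube_mem hf) hst hfl
      (s.cube_odd f j)).mono Ideal.mul_le_right
  have hF := hfl k l (s.cube_odd f k) (s.cube_odd f l)
  have q1 := plaq_first m.nil hK hp.gA hp.iA (m.sq _) (s.cube_mem hf) (s.cube_odd f k)
    (s.cube_odd f l) hkl c c' hξ (hcov k) (hcov l) hF
  have q2 := first_ord m.nil (m.sq _) (sup_le (MR_le s m hx A) (m.le _)) hsrc hξ hT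
    (plaq_flat m.nil hK hp.gA hp.iA (s.cube_mem hf) (s.cube_odd f k) (s.cube_odd f l) hkl c c' hF)
    ((hxe h0).mono hM)
  have q3 := add_mem q2 q1
  rw [sub_add_sub_cancel, ← hσ] at q3
  refine (congrArg (fun z => _ - z ∈ s.MR x A ^ 2) ?_).mp q3
  rcases ho with ⟨b1, b2, b3⟩ | ⟨b1, b2, b3⟩
  · rw [b1, b2, b3, map_zsmul]
  · rw [b1, b2, b3, map_zsmul, curv_anti A _ l k, mul_neg, Matrix.trace_neg, mul_neg, map_neg,
      neg_smul, smul_neg, neg_neg, mul_comm (hat (s.cube f) it.σ l)]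

end R5a

namespace Setup
variable (s : Setup) {O : Type} [CommRing O] [Algebra ℚ O] (m : Marked O Mk)
  {x : ∀ l : Lg, Option (s.L.C l.1) → M2 O}
  (hx : ∀ l c, s.L.cown l c = true → InC (m.ii (s.L.cmark l c)) (x l c))
  {A B : F1 O} (hp : s.Pair m.a A B)

include hx hp
/-- R5a -/
theorem pont_faces (hs : s.Sol x A B (s.MR x A)) :
    P215Z.CS (Rf s.D.N) A - 2 * ∑ f ∈ sqs s.g.m, itg (Matrix.trace (cst (s.src x (s.cv.sh f)) *
      lg ((s.lam A (s.cv.sh f) f * holL (s.UU A (s.cv.sh f)) (bdF f) *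
        (s.lam A (s.cv.sh f) f)⁻¹ : (MM O)ˣ) : MM O))) ∈ s.MR x A ^ 2 := by
  have h1 : ∀ q ∈ Rf s.D.N, itg (pairD (curv A) (curv A) (cell q)) -
      2 * itg (pairD (s.JR x A) (curv A) (cell q)) ∈ s.MR x A ^ 2 := by
    intro q hq
    have e := congrArg itg (R5a.pair_expand (curv A) (s.JR x A) (cell q))
    rw [map_sub, map_sub, R5a.pair_JJ s m hx A hq, sub_zero, two_mul, map_add, ← two_mul] at e
    rw [e, sq]
    exact R5a.pairD_mem fun i j k l =>
      InI.mul (hs.1 _ (R5a.cell_mem hq) i j (R5a.odd_cell q i) (R5a.odd_cell q j))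
        (hs.1 _ (R5a.cell_mem hq) k l (R5a.odd_cell q k) (R5a.odd_cell q l))
  have h2 := Ideal.sum_mem _ h1
  have h3 := Ideal.sum_mem _ fun f (hf : f ∈ sqs s.g.m) => R5a.face_one s m hx hp hs.1 (f := f) (by
    simp only [sqs, Finset.mem_product, Finset.mem_Ico] at hf
    exact ⟨hf.1.1, hf.1.2, hf.2.1, hf.2.2⟩)
  rw [Finset.sum_sub_distrib, ← s.sum_star x A] at h3
  rw [Finset.sum_sub_distrib, ← Finset.mul_sum, ← stokes4 _ (by rw [Kof_Rf]; exact hp.gA),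
    Finset.sum_congr rfl fun q _ => R5a.pair_JF s A (cell q)] at h2
  have h4 := sub_mem h2 (Ideal.mul_mem_left _ 2 h3)
  refine (congrArg (· ∈ s.MR x A ^ 2) ?_).mp h4
  ring

end Setup
end Vale.Agent.P215Z
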